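import Vale.Agent.P002F46.Fib

/-!
# P002: products of curves
-/

open Set Matrix Metric Topology
open scoped Real
open Vale.Agent.P299G40 (PN IsSmoothVariety)

namespace Vale.Agent.P002F

open Vale.Agent.P002A Vale.Agent.P002Z

theorem around_exists {W : Type} [TopologicalSpace W] {E : Set W} (x₀ : ↥Eᶜ)
    [PathConnectedSpace ↥Eᶜ] {φ : ℂ → W} (hφ : ∀ u ∈ closedBall (0 : ℂ) 1, ContinuousAt φ u)
    (hD : ∀ u ∈ closedBall (0 : ℂ) 1, φ u ∈ E → u = 0) : ∃ γ, Around E x₀ (φ 0) γ := by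
  have hm : ∀ θ, circleMap 0 1 θ ∈ closedBall (0 : ℂ) 1 := fun θ =>
    circleMap_mem_closedBall _ zero_le_one θ
  let g : ℝ → ↥Eᶜ := fun θ => ⟨φ (circleMap 0 1 θ), fun h =>
    circleMap_ne_center one_ne_zero (hD _ (hm θ) h)⟩
  have hg : Continuous g := (continuous_iff_continuousAt.2 fun θ =>
    (hφ _ (hm θ)).comp (continuous_circleMap _ _).continuousAt).subtype_mk _
  let c : Path (g 0) (g 0) :=
    { toFun := fun t => g (2 * π * t)
      continuous_toFun := hg.comp (by fun_prop)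
      source' := by simp
      target' := by
        refine Subtype.ext (congrArg φ ?_)
        simpa using periodic_circleMap (0 : ℂ) 1 0 }
  exact ⟨_, φ, g 0, PathConnectedSpace.somePath _ _, c, hφ, rfl, hD, fun _ => rfl, rfl⟩

variable {k : ℕ} {V : Fin k → Type} [∀ i, TopologicalSpace (V i)] (D : ∀ i, Set (V i))

/-- the projections -/
def pr (i : Fin k) : C(↥(bd D)ᶜ, ↥(D i)ᶜ) :=
  ⟨fun x => ⟨x.1 i, fun h => x.2 ⟨i, h⟩⟩,
    ((continuous_apply i).comp continuous_subtype_val).subtype_mk _⟩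

/-- the inverse of the projections -/
def gl : C(∀ i, ↥(D i)ᶜ, ↥(bd D)ᶜ) :=
  ⟨fun y => ⟨fun i => (y i).1, fun ⟨i, h⟩ => (y i).2 h⟩,
    (continuous_pi fun i => continuous_subtype_val.comp (continuous_apply i)).subtype_mk _⟩

theorem pr_surj (x₀ : ↥(bd D)ᶜ) (b : ∀ i, FundamentalGroup ↥(D i)ᶜ (pr D i x₀)) :
    ∃ a, ∀ i, FundamentalGroup.map (pr D i) x₀ a = b i := by
  choose q hq using fun i => Path.Homotopic.Quotient.mk_surjective (b i)
  let p : Path x₀ x₀ := (Path.pi q).map (gl D).continuous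
  refine ⟨Path.Homotopic.Quotient.mk p, fun i => Eq.trans ?_ (hq i)⟩
  exact congrArg Path.Homotopic.Quotient.mk (Path.ext rfl : p.map (pr D i).continuous = q i)

theorem pr_inj (x₀ : ↥(bd D)ᶜ) (a : FundamentalGroup ↥(bd D)ᶜ x₀)
    (h : ∀ i, FundamentalGroup.map (pr D i) x₀ a = 1) : a = 1 := by
  obtain ⟨p, rfl⟩ := Path.Homotopic.Quotient.mk_surjective a
  have h1 : ∀ i, (p.map (pr D i).continuous).Homotopic (Path.refl _) := fun i =>
    Quotient.exact (h i)
  have h2 : (Path.pi fun i => p.map (pr D i).continuous).Homotopic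
      (Path.pi fun i => Path.refl (pr D i x₀)) :=
    ⟨Path.Homotopic.piHomotopy _ _ fun i => (h1 i).some⟩
  exact Quotient.sound (h2.map (gl D))

theorem prod_pc [∀ i, PathConnectedSpace ↥(D i)ᶜ] : PathConnectedSpace ↥(bd D)ᶜ :=
  Function.Surjective.pathConnectedSpace (f := gl D) (fun x => ⟨fun i => pr D i x, rfl⟩)
    (gl D).continuous

theorem prod_fg (x₀ : ↥(bd D)ᶜ) (h : ∀ i, Group.FG (FundamentalGroup ↥(D i)ᶜ (pr D i x₀))) :
    Group.FG (FundamentalGroup ↥(bd D)ᶜ x₀) := by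
  let e := MulEquiv.ofBijective (MonoidHom.pi fun i => FundamentalGroup.map (pr D i) x₀)
    ⟨(injective_iff_map_eq_one _).2 fun a ha => pr_inj D x₀ a fun i => congrFun ha i,
      fun b => (pr_surj D x₀ b).imp fun a ha => funext ha⟩
  exact Group.fg_of_surjective (f := e.symm.toMonoidHom) e.symm.surjective

theorem fg_of_fp {G : Type} [Group G] (h : Group.IsFinitelyPresented G) : Group.FG G := by
  obtain ⟨n, φ, hφ, -⟩ := h.out
  exact Group.fg_of_surjective hφ

theorem products {N : Fin k → ℕ} (Z : ∀ i, Set (PN (N i))) (hZ : ∀ i, IsSmoothVariety 1 (Z i))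
    (D : ∀ i, Set (An (Z i))) (hD : ∀ i, (D i).Finite) (x₀ : ↥(bd D)ᶜ) :
    OverCurves (bd D) x₀ ∧ PathConnectedSpace ↥(bd D)ᶜ ∧
      Group.FG (FundamentalGroup ↥(bd D)ᶜ x₀) ∧
      ∀ (p : ∀ i, An (Z i)) (i : Fin k), (∀ j, j ≠ i → p j ∉ D j) →
        ∃ γ, Around (bd D) x₀ p γ := by
  have hc : ∀ i, PathConnectedSpace ↥(D i)ᶜ ∧
      Group.FG (FundamentalGroup ↥(D i)ᶜ (pr D i x₀)) ∧
      ∀ p, ∃ γ, P002A.IsMeridian (D i) (pr D i x₀) p γ := fun i => by
    obtain ⟨_, _, _, _, _, hdisc⟩ := geo (N i) (Z i) (hZ i)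
    have : PathConnectedSpace ↥(D i)ᶜ :=
      isPathConnected_iff_pathConnectedSpace.1 (isPathConnected_compl_finite (hD i))
    obtain ⟨g, n, m, δ, hδ, -⟩ := curve_isOrb (hD i) (pr D i x₀)
    exact ⟨this, fg_of_fp (isFinitelyPresented_of_isOrb hδ),
      fun p => P002A.exists_meridian (hD i) _ p (hdisc p)⟩
  choose h1 h2 h3 using hc
  have := prod_pc D
  refine ⟨⟨k, N, Z, D, fun i => ⟨fun x => x i, continuous_apply i⟩, pr D,
    fun i => ⟨hZ i, hD i, fun _ => rfl, ?_⟩, ?_⟩, this, prod_fg D x₀ h2, fun p i hp => ?_⟩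
  · have h : (FundamentalGroup.map (pr D i) x₀).range = ⊤ := by
      rw [MonoidHom.range_eq_top]
      intro y
      obtain ⟨a, ha⟩ := pr_surj D x₀ (Function.update 1 i y)
      exact ⟨a, (ha i).trans (Function.update_self ..)⟩
    rw [h]
    infer_instance
  · have : Subsingleton ↥(⨅ i, (FundamentalGroup.map (pr D i) x₀).ker) :=
      ⟨fun a b => Subtype.ext ((pr_inj D x₀ _ (Subgroup.mem_iInf.1 a.2)).trans
        (pr_inj D x₀ _ (Subgroup.mem_iInf.1 b.2)).symm)⟩
    exact ⟨⊤, inferInstance, inferInstance⟩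
  · obtain ⟨_, φ, -, -, -, hφ, h0, hφD, -⟩ := h3 i (p i)
    obtain ⟨γ, hγ⟩ := around_exists x₀ (φ := fun u => Function.update p i (φ u))
      (fun u hu => continuousAt_const.update i (hφ.continuousAt u hu)) fun u hu ⟨j, hj⟩ => by
        by_cases hji : j = i
        · subst hji
          exact hφD u hu (by simpa using hj)
        · exact absurd (by simpa [hji] using hj) (hp j hji)
    refine ⟨γ, ?_⟩
    simpa [h0] using hγ

end Vale.Agent.P002F
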