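import Vale.Agent.P002F46.St2
import Vale.Agent.P002F46.Prod
import Vale.Agent.P002B14.Fam

/-!
# P002: the compact form of the definitions
-/

namespace Vale.Agent.P002G

theorem over_iff {W : Type} [TopologicalSpace W] {E : Set W} {x₀ : ↥Eᶜ} :
    OverCurves E x₀ ↔ P002F.OverCurves E x₀ :=
  ⟨fun ⟨k, N, Z, D, f, g, h, h1, h2⟩ =>
    ⟨k, N, Z, D, f, g, fun i => ⟨(h i).1, (h i).2.1, (h i).2.2, h1 i⟩, h2⟩,
  fun ⟨k, N, Z, D, f, g, h, h2⟩ =>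
    ⟨k, N, Z, D, f, g, fun i => ⟨(h i).1, (h i).2.1, (h i).2.2.1⟩, fun i => (h i).2.2.2, h2⟩⟩

end Vale.Agent.P002G
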