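import Vale.Agent.P002F46.St
import Vale.Agent.P002A30.Fin
import Vale.Agent.P002G96.Geo
import Vale.Agent.P002S14.SS
import Vale.Agent.P002C97.Jor

/-!
# P002: density for spaces over curves
-/

open Set Matrix Metric Topology
open scoped Real
open Vale.Agent.P299G40 (PN IsSmoothVariety)

namespace Vale.Agent.P002F

open Vale.Agent.P002A Vale.Agent.P002C Vale.Agent.P002Z Vale.Agent.P002R.Orb
  Vale.Agent.P002.H326J Vale.Agent.P002.H2 Vale.Agent.P002.H252

theorem null_of {M : Type} [TopologicalSpace M] {D : Set M} {x0 y : ↥Dᶜ}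
    [PathConnectedSpace ↥Dᶜ] {φ : ℂ → M} (hφ : ∀ u ∈ closedBall (0 : ℂ) 1, ContinuousAt φ u)
    (hD : ∀ u ∈ closedBall (0 : ℂ) 1, φ u ∉ D) (σ : Path x0 y) (c : Path y y)
    (hc : ∀ t, (c t : M) = φ (circleMap 0 1 (2 * π * t))) : conjLoop σ c = 1 := by
  let u : ℂ → ℂ := fun w => (max 1 ‖w‖)⁻¹ • w
  have hpos : ∀ w : ℂ, (0 : ℝ) < max 1 ‖w‖ := fun w => lt_max_of_lt_left one_pos
  have hu : Continuous u :=
    ((continuous_const.max continuous_norm).inv₀ fun w => (hpos w).ne').smul continuous_id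
  have hub : ∀ w, u w ∈ closedBall (0 : ℂ) 1 := fun w => by
    rw [mem_closedBall_zero_iff, norm_smul, norm_inv, Real.norm_of_nonneg (hpos w).le,
      inv_mul_le_iff₀ (hpos w), mul_one]
    exact le_max_right _ _
  let Ψ : C(ℂ, ↥Dᶜ) := ⟨fun w => ⟨φ (u w), hD _ (hub w)⟩,
    (continuous_iff_continuousAt.2 fun w => (hφ _ (hub w)).comp hu.continuousAt).subtype_mk _⟩
  let q : Path (circleMap 0 1 0) (circleMap 0 1 0) :=
    { toFun := fun t => circleMap 0 1 (2 * π * t)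
      continuous_toFun := (continuous_circleMap _ _).comp (by fun_prop)
      source' := by simp
      target' := by simpa using periodic_circleMap (0 : ℂ) 1 0 }
  obtain ⟨κ, hκ, -⟩ := exists_univ x0
  have e1 : κ.v c = 1 := by
    have h1 : (κ.comap Ψ).v q = 1 := by
      rw [(κ.comap Ψ).hom (SimplyConnectedSpace.paths_homotopic q (Path.refl _)), PF.refl]
    rw [← h1]
    refine κ.congr (q := q.map Ψ.continuous) fun t => Subtype.ext ?_
    rw [hc]
    change _ = φ (u (circleMap 0 1 (2 * π * t)))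
    simp [u]
  rw [← hκ (conjLoop σ c), κ.toHom_conjLoop, e1, mul_one, inv_mul_cancel]

/-- the family with trivial action attached to finitely many maps to orbicurve groups -/
def famOf {Γ : Type} [Group Γ] {k : ℕ} {g n : Fin k → ℕ} {m : ∀ i, Fin (n i) → ℕ}
    (φ : ∀ i, Γ →* OrbGroup (g i) (n i) (m i)) (hφ : ∀ i, (φ i).range.FiniteIndex) :
    OrbFamily Γ :=
  letI : MulAction Γ (Fin k) :=
    { smul := fun _ i => i, one_smul := fun _ => rfl, mul_smul := fun _ _ _ => rfl }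
  { I := Fin k
    fin := inferInstance
    act := this
    g := g
    n := n
    m := m
    φ := fun i => (φ i).comp (MulAction.stabilizer Γ i).subtype
    range := fun i => by
      have := hφ i
      refine Subgroup.finiteIndex_of_le (H := (φ i).range) ?_
      rintro _ ⟨y, rfl⟩
      exact ⟨⟨y, rfl⟩, rfl⟩
    conj := fun x i => by
      have h : ((φ i).comp (MulAction.stabilizer Γ i).subtype).ker.map
          (MulAction.stabilizer Γ i).subtype = (φ i).ker := by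
        ext y
        exact ⟨fun ⟨z, hz, e⟩ => e ▸ hz, fun hy => ⟨⟨y, rfl⟩, hy, rfl⟩⟩
      refine h.trans (Eq.trans ?_ (congrArg (Subgroup.map (MulAut.conj x).toMonoidHom) h.symm))
      ext y
      refine ⟨fun hy => ⟨x⁻¹ * y * x, (MonoidHom.normal_ker (φ i)).conj_mem' y hy x, by simp [mul_assoc]⟩, ?_⟩
      rintro ⟨z, hz, rfl⟩
      exact (MonoidHom.normal_ker (φ i)).conj_mem z hz x
    dist := fun i x h => absurd rfl h }

theorem famOf_K {Γ : Type} [Group Γ] {k : ℕ} {g n : Fin k → ℕ} {m : ∀ i, Fin (n i) → ℕ}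
    (φ : ∀ i, Γ →* OrbGroup (g i) (n i) (m i)) (hφ : ∀ i, (φ i).range.FiniteIndex) :
    (famOf φ hφ).K = ⨅ i, (φ i).ker := by
  refine iInf_congr (ι := Fin k) fun i => ?_
  ext y
  exact ⟨fun ⟨z, hz, e⟩ => e ▸ hz, fun hy => ⟨⟨y, rfl⟩, hy, rfl⟩⟩

theorem vs_equiv {A B : Type} [Group A] [Group B] (e : A ≃* B)
    (h : ∃ H : Subgroup B, Group.IsSolvable H ∧ H.FiniteIndex) :
    ∃ H : Subgroup A, Group.IsSolvable H ∧ H.FiniteIndex := by
  obtain ⟨H, h1, h2⟩ := h
  refine ⟨H.comap e.toMonoidHom, ?_, ⟨?_⟩⟩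
  · exact Group.isSolvable_of_isSolvable_injective (f := e.toMonoidHom.subgroupComap H)
      fun a b hab => Subtype.ext (e.injective (congrArg Subtype.val hab))
  · rw [Subgroup.index_comap_of_surjective _ e.surjective]
    exact h2.index_ne_zero

theorem dense_of_maps {G : Type} [Group G] {k : ℕ} {g n : Fin k → ℕ} {m : ∀ i, Fin (n i) → ℕ}
    {Q : Fin k → Type} [∀ i, Group (Q i)] {δ : ∀ i, G0 (g i) (n i) → Q i}
    (hδ : ∀ i, IsOrb (g i) (n i) (m i) (Q i) (δ i)) (ψ : ∀ i, G →* Q i)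
    (hψ : ∀ i, (ψ i).range.FiniteIndex)
    (hK : ∃ H : Subgroup ↥(⨅ i, (ψ i).ker), Group.IsSolvable H ∧ H.FiniteIndex)
    {ι : Type} [Finite ι] (R : Set (FreeGroup ι))
    (θ : PresentedGroup R ≃* G) (r s : ℕ) (w : Fin s → FreeGroup ι)
    (C : Fin s → SpecialLinearGroup (Fin r) ℂ)
    (hw : ∀ j i, ψ i (θ (PresentedGroup.mk R (w j))) = 1 ∨ ∃ (l : Fin (n i)) (h : Q i) (a : ℤ),
      ψ i (θ (PresentedGroup.mk R (w j))) = h * δ i (Sum.inr l) ^ a * h⁻¹)
    (hC : ∀ j, P002Z.IsQuasiUnipotent (C j)) :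
    ∃ L : IntermediateField ℚ ℂ, FiniteDimensional ℚ L ∧ IsDenseRep L (YW R w C) := by
  choose θo hθo using fun i => (hδ i).equiv (stdGen_isOrb (g i) (n i) (m i))
  let φ : ∀ i, PresentedGroup R →* OrbGroup (g i) (n i) (m i) := fun i =>
    (θo i).toMonoidHom.comp ((ψ i).comp θ.toMonoidHom)
  have hφ : ∀ i, (φ i).range.FiniteIndex := fun i => by
    have h1 : (φ i).range = (ψ i).range.map (θo i).toMonoidHom := by
      ext y
      refine ⟨fun ⟨x, hx⟩ => ⟨_, ⟨θ x, rfl⟩, hx⟩, ?_⟩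
      rintro ⟨_, ⟨x, rfl⟩, rfl⟩
      exact ⟨θ.symm x, by simp [φ]⟩
    refine ⟨?_⟩
    rw [h1, Subgroup.index_map_of_bijective (θo i).bijective]
    exact (hψ i).index_ne_zero
  let O := famOf φ hφ
  have hper : ∀ j, O.IsPeripheral (PresentedGroup.mk R (w j)) := by
    rintro j (i : Fin k) z ⟨x, a, hz⟩
    have h0 : O.φ i z = θo i (ψ i (θ (z : PresentedGroup R))) := rfl
    have h4 : ψ i (θ (z : PresentedGroup R)) =
        ψ i (θ x) * ψ i (θ (PresentedGroup.mk R (w j))) ^ a * (ψ i (θ x))⁻¹ := by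
      rw [hz]
      simp only [map_mul, map_inv, map_zpow]
    rcases hw j i with hb | ⟨l, h, b, hb⟩
    · left
      rw [h0, h4, hb, _root_.one_zpow, mul_one, mul_inv_cancel, map_one]
      rfl
    · have h1 : θo i (δ i (Sum.inr l)) = OrbGroup.loop l := hθo i (Sum.inr l)
      have h2 : ψ i (θ (z : PresentedGroup R)) =
          ψ i (θ x) * h * δ i (Sum.inr l) ^ (b * a) * (ψ i (θ x) * h)⁻¹ := by
        rw [h4, hb, conj_zpow, ← _root_.zpow_mul]
        group
      refine Or.inr ⟨l, b * a, isConj_iff.2 ⟨θo i (ψ i (θ x) * h), ?_⟩⟩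
      rw [h0, h2, map_mul (θo i) _ _⁻¹, map_mul (θo i) (ψ i (θ x) * h), map_inv, map_zpow, h1]
      rfl
  obtain ⟨L, hL, h⟩ := main_T3 O r w C hC hper ⊥ inferInstance bot_le (fun _ => (r : ℂ))
    fun _ => isIntegral_natCast r
  rw [yrel_bot, yker_eq] at h
  · exact ⟨L, hL, h⟩
  · have hk : O.K = (⨅ i, (ψ i).ker).comap θ.toMonoidHom := by
      rw [famOf_K]
      ext y
      rw [Subgroup.mem_comap, Subgroup.mem_iInf, Subgroup.mem_iInf]
      exact forall_congr' fun i => map_eq_one_iff (θo i) (θo i).injective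
    rw [hk]
    exact vs_equiv (MulEquiv.ofBijective (θ.toMonoidHom.subgroupComap _)
      ⟨fun a b hab => Subtype.ext (θ.injective (congrArg Subtype.val hab)),
        MonoidHom.subgroupComap_surjective_of_surjective _ _ θ.surjective⟩) hK

theorem dens_of_key {G : Type} [Group G] {P : Set G}
    (key : ∀ (ι : Type) [Finite ι] (R : Set (FreeGroup ι)) (θ : PresentedGroup R ≃* G) (r s : ℕ)
      (w : Fin s → FreeGroup ι) (C : Fin s → SpecialLinearGroup (Fin r) ℂ),
      (∀ j, θ (PresentedGroup.mk R (w j)) ∈ P) → (∀ j, P002Z.IsQuasiUnipotent (C j)) →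
      ∃ L : IntermediateField ℚ ℂ, FiniteDimensional ℚ L ∧ IsDenseRep L (YW R w C)) :
    Dens G P := by
  intro ι _ R θ r
  have k2 : ∀ (s : ℕ) (γ : Fin s → G) (C : Fin s → SpecialLinearGroup (Fin r) ℂ),
      (∀ j, γ j ∈ P) → (∀ j, P002A.IsQuasiUnipotent (C j)) →
      ∃ L : IntermediateField ℚ ℂ, FiniteDimensional ℚ L ∧
        repLocus θ γ C ⊆ closure (intPts _ L ∩ repLocus θ γ C) := by
    intro s γ C hγ hC
    choose w hw using fun j => (θ.surjective.comp (PresentedGroup.mk_surjective R)) (γ j)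
    obtain rfl : γ = fun j => θ (PresentedGroup.mk R (w j)) := funext fun j => (hw j).symm
    obtain ⟨L, hL, h⟩ := key ι R θ r s w C hγ
      fun j z hz => hC j z (mem_spectrum_iff_isRoot_charpoly.2 hz)
    exact ⟨L, hL, rep_dense θ w C h⟩
  refine ⟨fun A _ => represents θ, ?_, fun s γ C hγ hC => ?_⟩
  · obtain ⟨L, hL, h⟩ := k2 0 Fin.elim0 Fin.elim0 (fun j => j.elim0) fun j => j.elim0
    exact ⟨L, hL, denseIn_image _ h (mapsTo_univ _ _) (univ_subset θ ss)⟩
  · obtain ⟨L, hL, h⟩ := one_field θ γ (fun B hB => by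
      obtain ⟨L, hL, h⟩ := k2 s γ B hγ hB
      exact ⟨L, hL, denseIn_image (RingHom.id _) h (fun _ hx => hx)
        fun x hx => subset_closure ⟨x, hx, rfl⟩⟩) C hC
    exact ⟨L, hL, fun T hT =>
      ⟨(h T hT).1, (h T hT).2, fun hc => imageIn_eq θ γ T hc fun j => (hT j).2⟩⟩

theorem fib {W : Type} [TopologicalSpace W] (E : Set W) (x₀ : ↥Eᶜ) (h : OverCurves E x₀) :
    Dens (FundamentalGroup ↥Eᶜ x₀) {γ | ∃ p, Around E x₀ p γ} := by
  obtain ⟨k, N, Z, D, f, g, hi, hK⟩ := h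
  have hc : ∀ i, PathConnectedSpace ↥(D i)ᶜ ∧ ∃ (a n : ℕ) (m : Fin n → ℕ)
      (δ : G0 a n → FundamentalGroup ↥(D i)ᶜ (g i x₀)), IsOrb a n m _ δ ∧
      ∀ p ∈ D i, ∀ γ, LocalAt (D i) (g i x₀) p γ →
        ∃ (l : Fin n) (h : FundamentalGroup ↥(D i)ᶜ (g i x₀)) (a : ℤ),
          γ = h * δ (Sum.inr l) ^ a * h⁻¹ := fun i => by
    obtain ⟨_, _, _, _, _, -⟩ := geo (N i) (Z i) (hi i).1
    exact ⟨isPathConnected_iff_pathConnectedSpace.1
      (isPathConnected_compl_finite (hi i).2.1), curve_isOrb (hi i).2.1 _⟩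
  choose hpc a n m δ hδ hper using hc
  refine dens_of_key fun ι _ R θ r s w C hw hC =>
    dense_of_maps hδ (fun i => FundamentalGroup.map (g i) x₀) (fun i => (hi i).2.2.2) hK
      R θ r s w C (fun j i => ?_) hC
  obtain ⟨p, φ, y, σ, c, h1, -, h2, h3, h4⟩ := hw j
  have := hpc i
  have e : FundamentalGroup.map (g i) x₀ (θ (PresentedGroup.mk R (w j))) =
      conjLoop (σ.map (g i).continuous) (c.map (g i).continuous) := by
    rw [h4]
    exact map_conjLoop (g i) σ c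
  have c1 : ∀ u ∈ closedBall (0 : ℂ) 1, ContinuousAt (fun u => f i (φ u)) u := fun u hu =>
    (f i).continuous.continuousAt.comp (h1 u hu)
  have c2 : ∀ u ∈ closedBall (0 : ℂ) 1, f i (φ u) ∈ D i → u = 0 := fun u hu hD => by
    by_contra hne
    have h5 := (g i ⟨φ u, fun hE => hne (h2 u hu hE)⟩).2
    rw [(hi i).2.2.1] at h5
    exact h5 hD
  have c3 : ∀ t, ((c.map (g i).continuous) t : An (Z i)) =
      f i (φ (circleMap 0 1 (2 * π * t))) := fun t => by
    rw [← h3]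
    exact (hi i).2.2.1 _
  rw [e]
  by_cases h0 : f i (φ 0) ∈ D i
  · exact Or.inr (hper i _ h0 _ (localAt_of c1 c2 _ _ c3))
  · refine Or.inl (null_of c1 (fun u hu hD => ?_) _ _ c3)
    exact h0 (c2 u hu hD ▸ hD)

theorem around_of {N : ℕ} {W : Set (PN N)} {E : Set (An W)} {x₀ : ↥Eᶜ} {p : An W}
    {γ : FundamentalGroup ↥Eᶜ x₀} (h : P002A.IsMeridian E x₀ p γ) : Around E x₀ p γ := by
  obtain ⟨φ, y, σ, c, h1, h2, h3, h4, h5⟩ := h
  exact ⟨φ, y, σ, c, h1.continuousAt, h2, h3, h4, h5⟩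

end Vale.Agent.P002F
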