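import Vale.Agent.P002C97.Defs2

/-!
# P002: spaces of any dimension that map to curves
-/

open Matrix Metric
open scoped Real
open Vale.Agent.P299G40 (PN IsSmoothVariety)

namespace Vale.Agent.P002G

open Vale.Agent.P002A Vale.Agent.P002C

variable {W : Type} [TopologicalSpace W] (E : Set W) (x₀ : ↥Eᶜ)

/-- `γ` goes to the boundary circle of a continuous disc in `W` which meets `E` at most in its
centre `p`, once around it, and back. -/
def Around (p : W) (γ : FundamentalGroup ↥Eᶜ x₀) : Prop :=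
  ∃ (φ : ℂ → W) (y : ↥Eᶜ) (σ : Path x₀ y) (c : Path y y),
    (∀ u ∈ closedBall (0 : ℂ) 1, ContinuousAt φ u) ∧ φ 0 = p ∧
    (∀ u ∈ closedBall (0 : ℂ) 1, φ u ∈ E → u = 0) ∧
    (∀ t, (c t : W) = φ (circleMap 0 1 (2 * π * t))) ∧
    γ = FundamentalGroup.fromPath (Path.Homotopic.Quotient.mk (σ.trans (c.trans σ.symm)))

/-- The images of the `ψ i` have finite index and the common kernel is virtually solvable. -/
def Good {G : Type} [Group G] {k : ℕ} {Q : Fin k → Type} [∀ i, Group (Q i)]
    (ψ : ∀ i, G →* Q i) : Prop :=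
  (∀ i, (ψ i).range.FiniteIndex) ∧
    ∃ H : Subgroup ↥(⨅ i, (ψ i).ker), Group.IsSolvable H ∧ H.FiniteIndex

/-- The maps `g i` induce a good family of homomorphisms of fundamental groups. -/
def GoodMaps {X : Type} [TopologicalSpace X] {k : ℕ} {Y : Fin k → Type}
    [∀ i, TopologicalSpace (Y i)] (g : ∀ i, C(X, Y i)) (x : X) : Prop :=
  Good fun i => FundamentalGroup.map (g i) x

/-- There are finitely many continuous maps `f i` from `W` to smooth projective curves `Z i` which
restrict to maps `g i` from `X = W ∖ E` to `Z i ∖ D i`, `D i` finite, such that on fundamental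
groups the images have finite index and the common kernel is virtually solvable. -/
def OverCurves : Prop :=
  ∃ (k : ℕ) (N : Fin k → ℕ) (Z : ∀ i, Set (PN (N i))) (D : ∀ i, Set (An (Z i)))
    (f : ∀ i, C(W, An (Z i))) (g : ∀ i, C(↥Eᶜ, ↥(D i)ᶜ)),
    (∀ i, IsSmoothVariety 1 (Z i) ∧ (D i).Finite ∧ ∀ x, (g i x).1 = f i x.1) ∧ GoodMaps g x₀

/-- Q1 for a group `G` and a set `P` of allowed meridians: for every presentation with finitely
many generators and every `r`, `Rep_r` represents `A ↦ Hom(G, SL_r(A))`, the `𝓞 L`-points of `M_r`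
are dense in `M_r(ℂ)` for some number field `L`, and for all `γ j ∈ P` and quasi-unipotent `C j`
one number field `L` serves all admissible boundary conditions. -/
def Dens (G : Type) [Group G] (P : Set G) : Prop :=
  ∀ (ι : Type) [Finite ι] (R : Set (FreeGroup ι)) (θ : PresentedGroup R ≃* G) (r : ℕ),
    (∀ (A : Type) [CommRing A],
      (∀ ρ, ∃! x : ORep r R →+* A, IsPointOf θ ρ x) ∧
      ∀ x : ORep r R →+* A, ∃! ρ, IsPointOf θ ρ x) ∧
    (∃ L : IntermediateField ℚ ℂ, FiniteDimensional ℚ L ∧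
      DenseIn (intPts (OM r R) L) Set.univ) ∧
    ∀ (s : ℕ) (γ : Fin s → G) (C : Fin s → SpecialLinearGroup (Fin r) ℂ),
      (∀ j, γ j ∈ P) → (∀ j, IsQuasiUnipotent (C j)) →
      ∃ L : IntermediateField ℚ ℂ, FiniteDimensional ℚ L ∧
        ∀ T, (∀ j, Adm (C j) (T j)) → DenseFor θ γ L T

/-- The boundary of `∏ (Z i ∖ D i)` in `∏ Z i`. -/
def bd {k : ℕ} {V : Fin k → Type} (D : ∀ i, Set (V i)) : Set (∀ i, V i) := {x | ∃ i, x i ∈ D i}

end Vale.Agent.P002G
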